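import Vale.Agent.P186.Cayley

namespace Vale.Agent.Results.P186.NotRF

/-- Word-hyperbolic groups: for some finite generating set, geodesic triangles in the Cayley graph
are uniformly thin. The three sides play symmetric roles, so it suffices to speak of the first. -/
def IsWordHyperbolic (G : Type) [Group G] : Prop :=
  ∃ (S : Set G) (δ : ℕ), S.Finite ∧ Subgroup.closure S = ⊤ ∧
    ∀ (x y z : G) (p : (SimpleGraph.mulCayley S).Walk x y)
      (q : (SimpleGraph.mulCayley S).Walk y z) (r : (SimpleGraph.mulCayley S).Walk z x),
      p.length = (SimpleGraph.mulCayley S).dist x y →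
      q.length = (SimpleGraph.mulCayley S).dist y z →
      r.length = (SimpleGraph.mulCayley S).dist z x →
      ∀ u ∈ p.support, ∃ v, (v ∈ q.support ∨ v ∈ r.support) ∧
        (SimpleGraph.mulCayley S).dist u v ≤ δ

/-- There is a word-hyperbolic group which is not residually finite. -/
theorem result : ∃ (G : Type) (_ : Group G), Group.IsFinitelyPresented G ∧ IsWordHyperbolic G ∧
    ¬ Group.ResiduallyFinite G :=
  Vale.Agent.P186.main_hyp

end Vale.Agent.Results.P186.NotRF
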